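import Vale.Agent.Lib.P067.Euler
import Vale.Agent.Lib.P067.Skeleton

namespace Vale.Agent.Results.P067.EulerAndMonotone

open Vale.Agent.Lib.P067

/-- Two unconditional statements about bounded-degree coboundary expanders.

First conjunct: for every dimension `d ≥ 1`, degree bound `D` and `ε > 0` there are `N`
and `C` such that every pure `d`-dimensional `ε`-coboundary expander `X` of degree at
most `D` satisfies `|X(0)| ≤ N + C * (-1) ^ d * (χ(X) - 1)`, where `χ(X)` is the Euler
characteristic, the alternating sum of the numbers of faces of `X`.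

Second conjunct: if the statement of the question holds in dimension `e`, it holds in
every dimension `d` with `1 ≤ d ≤ e`. -/
theorem result :
    (∀ (d D : ℕ) (ε : ℝ), 1 ≤ d → 0 < ε → ∃ N C : ℕ,
      ∀ X : Finset (Finset ℕ), IsPureComplex X d → (∀ v : ℕ, updeg X d {v} ≤ D) →
        IsCobExp X d ε →
          ((faces X 0).card : ℤ) ≤ (N : ℤ) + (C : ℤ) *
            ((-1) ^ d * (∑ i ∈ Finset.range (d + 1), (-1) ^ i * ((faces X i).card : ℤ) - 1)))
    ∧ (∀ d e : ℕ, 1 ≤ d → d ≤ e → Good e → Good d) :=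
  ⟨fun d D ε hd hε =>
    ⟨1 + D * 2 ^ (d + 1) * rr d D ε d,
      ((d + 1) * (1 + D * 2 ^ (d + 1) * rr d D ε d))
        * (((1 + D * (d + 1)) ^ ⌈(D : ℝ) * ((d : ℝ) + 1) / ε⌉₊ * (d + 1))
          * (D * (1 + D * (d + 1)) ^ ⌈(D : ℝ) * ((d : ℝ) + 1) / ε⌉₊)),
      fun _ hP hD hE => euler_linear hd hP hD hε hE⟩,
   fun _ _ hd hde h => good_mono hd hde h⟩

end Vale.Agent.Results.P067.EulerAndMonotone
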