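import Vale.Agent.Lib.P067.Skeleton

namespace Vale.Agent.Results.P067.SkeletonMonotone

open Vale.Agent.Lib.P067

/-- If the statement of the question holds in dimension `e`, it holds in every dimension
`d` with `1 ≤ d ≤ e`. -/
theorem result : ∀ d e : ℕ, 1 ≤ d → d ≤ e → Good e → Good d :=
  fun _ _ hd hde h => good_mono hd hde h

end Vale.Agent.Results.P067.SkeletonMonotone
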