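import Vale.Agent.Lib.P067.TelMain

namespace Vale.Agent.Results.P067.TelescopeUniform

open Vale.Agent.Lib.P067

/-- For every dimension `d ≥ 1` and all tower parameters `D`, `c`, `ε > 0` there are `D'`
and `ε' > 0` such that every tower `X 0 ← X 1 ← ... ← X m` with these parameters admits a
connected pure `d`-dimensional complex `T` containing every level, with at most twice as
many vertices as the top level, of degree at most `D'`, which is an `ε'`-coboundary
expander. -/
theorem result : ∀ d : ℕ, 1 ≤ d → ∀ (D c : ℕ) (ε : ℝ), 0 < ε →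
    ∃ D' : ℕ, ∃ ε' : ℝ, 0 < ε' ∧ ∀ (m : ℕ) (X : ℕ → Finset (Finset ℕ)) (π ℓ : ℕ → ℕ),
      IsTower d D c ε m X π ℓ → ∃ T : Finset (Finset ℕ),
        IsPureComplex T d ∧ (graph T).Connected ∧ (∀ k, k ≤ m → X k ⊆ T) ∧
          (faces T 0).card ≤ 2 * (faces (X m) 0).card ∧
          (∀ v : ℕ, updeg T d {v} ≤ D') ∧ IsCobExp T d ε' :=
  fun d hd D c ε hε => tel_uniform d hd D c ε hε

end Vale.Agent.Results.P067.TelescopeUniform
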