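import Vale.Agent.Lib.P067.TopBetti

namespace Vale.Agent.Results.P067.TopBetti

open Vale.Agent.Lib.P067

/-- For every dimension `d ≥ 1`, degree bound `D` and `ε > 0` there are `N` and `C` such
that every pure `d`-dimensional `ε`-coboundary expander `X` of degree at most `D` has a set
`T` of `d`-faces with `|X(0)| ≤ N + C * |T|` which is independent modulo coboundaries: for
no nonempty subset `S` of `T` is the indicator cochain of `S` a coboundary. So the top
cohomology of `X` over the field with two elements has dimension at least `|T|`, which is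
at least `|X(0)| - N` divided by `C`. -/
theorem result : ∀ (d D : ℕ) (ε : ℝ), 1 ≤ d → 0 < ε → ∃ N C : ℕ,
    ∀ X : Finset (Finset ℕ), IsPureComplex X d → (∀ v : ℕ, updeg X d {v} ≤ D) →
      IsCobExp X d ε → ∃ T : Finset (Finset ℕ), T ⊆ faces X d ∧
        (∀ S : Finset (Finset ℕ), S ⊆ T → S.Nonempty →
          ¬ IsCobdry X d (fun s => if s ∈ S then 1 else 0)) ∧
        (faces X 0).card ≤ N + C * T.card :=
  fun d D ε hd hε =>
    ⟨1 + D * 2 ^ (d + 1) * rr d D ε d,
      ((d + 1) * (1 + D * 2 ^ (d + 1) * rr d D ε d))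
        * (((1 + D * (d + 1)) ^ ⌈(D : ℝ) * ((d : ℝ) + 1) / ε⌉₊ * (d + 1))
          * (D * (1 + D * (d + 1)) ^ ⌈(D : ℝ) * ((d : ℝ) + 1) / ε⌉₊)),
      fun _ hP hD hE => top_indep hd hP hD hε hE⟩

end Vale.Agent.Results.P067.TopBetti
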